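import Vale.Agent.P038.Defs
import Mathlib

/-!
# Seymour's second neighbourhood conjecture: integer weights and closed neighbourhoods
-/

namespace Vale.Agent.P038.H758

open Finset

variable {V : Type*} [Fintype V]

/-- Total weight of a set of vertices. -/
def W (w : V → ℤ) (S : Finset V) : ℤ := ∑ v ∈ S, w v

open Classical in
/-- The closed out-neighbourhood `N⁺[S]` of a set. -/
noncomputable def cl (D : OGraph V) (S : Finset V) : Finset V :=
  Finset.univ.filter fun z => z ∈ S ∨ ∃ y ∈ S, D.arc y z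

theorem mem_cl {D : OGraph V} {S : Finset V} {z : V} :
    z ∈ cl D S ↔ z ∈ S ∨ ∃ y ∈ S, D.arc y z := by
  classical
  simp [cl]

theorem subset_cl (D : OGraph V) (S : Finset V) : S ⊆ cl D S :=
  fun _ h => mem_cl.2 (Or.inl h)

theorem cl_mono (D : OGraph V) {S T : Finset V} (h : S ⊆ T) : cl D S ⊆ cl D T := by
  intro z hz
  rw [mem_cl] at hz ⊢
  rcases hz with hz | ⟨y, hy, hyz⟩
  · exact Or.inl (h hz)
  · exact Or.inr ⟨y, h hy, hyz⟩

theorem W_mono {w : V → ℤ} (hw : ∀ v, 0 ≤ w v) {S T : Finset V} (h : S ⊆ T) : W w S ≤ W w T :=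
  Finset.sum_le_sum_of_subset_of_nonneg h fun v _ _ => hw v

theorem W_nonneg {w : V → ℤ} (hw : ∀ v, 0 ≤ w v) (S : Finset V) : 0 ≤ W w S :=
  Finset.sum_nonneg fun v _ => hw v

end Vale.Agent.P038.H758
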